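import Crest.Agent.X262.St91.Main
import Crest.Agent.X262.Nf68.Emp
import Crest.Agent.X262.Cert21.Sm
import Crest.Agent.X262.Nc29.Main

/-!
# Row 262, G4 / START (helper91): the unconditional statements
-/

set_option autoImplicit false

namespace Crest.Agent.X262.St91

/-- **CERT** -/
theorem certStmt : CertStmt := Nf68.cert_of Cert21.smCub Nc29.noLine Nc29.noConic

/-- **START** -/
theorem startStmt : G4.StartStmt := start_of_cert certStmt

end Crest.Agent.X262.St91
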