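import Crest.Agent.X262.St91.Defs
import Crest.Agent.X262.Pf19.Pf

/-!
# Row 262, G4 / START (helper91): the statements `CertStmt` (the example) and `PfStmt` (the map of
Beauville and Donagi)
-/

set_option autoImplicit false

noncomputable section

namespace Crest.Agent.X262.St91

open Crest.Agent.X277 Crest.Agent.X277.BD
open Crest.Agent.X262.Top (SmCub Lines)
open Crest.Agent.X262.Pf19 (Om Skew cub NoLine NoConic)

/-- skew forms as linear forms on Plücker vectors -/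
def omI (ω : Om) : Fin 6 → I2 → ℂ := fun a ij => ω a ij.1 ij.2

/-- CERT: the example -/
def CertStmt : Prop := ∃ ω : Om, Skew ω ∧ SmCub (cub ω) ∧ NoLine ℂ ω ∧ NoConic ℂ ω ∧
  Nonempty (Geo (omI ω))

/-- PF: the map of Beauville and Donagi at every valuation -/
def PfStmt : Prop := ∀ ω : Om, Skew ω → SmCub (cub ω) → NoLine ℂ ω → NoConic ℂ ω →
  ∀ (F L : Type) [Field F] [Algebra ℂ F] [Algebra.EssFiniteType ℂ F] [Field L] [Algebra ℂ L]
    (p : I2 → F) (ι : F →ₐ[ℂ] L) (τ : L →ₐ[ℂ] L), dim ℂ F = 2 → OnS (omI ω) p →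
    IntermediateField.adjoin ℂ {x | ∃ i j, x = p i / p j} = ⊤ →
    R274.Prod1_134.IsPF ι (τ.comp ι) → (∀ x, τ (τ x) = x) →
      ∃ Λ : Lines (cub ω) F L, Λ.ι = ι ∧ Λ.τ = τ ∧ ∃ u : L, u ≠ 0 ∧ τ u = -u ∧
        mxf ℂ Λ.plk = 2 • pb ι (mxf ℂ p) + 2 • pb (τ.comp ι) (mxf ℂ p) -
          5 • dgl ι (τ.comp ι) p + pr ℂ u

end Crest.Agent.X262.St91
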