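import Crest.Agent.X262.St91.Defs
import Crest.Agent.X277.Cns.Lift

/-!
# Row 262, G4 / START (helper91): the recursion of the two Beauville involutions

* `exists_sym` : `c₁ + c₂` descends to the fixed field of the swap;
* `exists_gam` : the Plücker class of the secant line descends;
* `St.step`    : one involution; `exists_st` : the iteration;
* `large`      : the arithmetic of the lattice.
-/

set_option autoImplicit false

open MvPolynomial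

noncomputable section

namespace Crest.Agent.X262.St91

open Crest.Agent.X277 Crest.Agent.X277.Lef Crest.Agent.X277.AN.G1 Crest.Agent.X277.BD
open Crest.Agent.X277.BD.Br (On oP)
open Crest.Agent.X262.Top (Hyp)
open Crest.Agent.R274.Prod1_134 (IsPF)

variable {F L Q : Type} [Field F] [Algebra ℂ F] [Field L] [Algebra ℂ L] [Field Q] [Algebra ℂ Q]

section Desc

variable {ι : F →ₐ[ℂ] L} {τ : L →ₐ[ℂ] L} {j : Q →ₐ[ℂ] L}

theorem v_two (V : RZ ℂ L) : V.v 2 = 1 := by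
  simpa only [map_ofNat] using V.v_alg (c := 2) two_ne_zero

theorem exists_sym (inv : ∀ x, τ (τ x) = x) (fix : ∀ x, τ x = x ↔ x ∈ j.range) (c : BD ℂ F) :
    ∃ C : BD ℂ Q, pb j C = pb ι c + pb (τ.comp ι) c := by
  suffices h : ∀ c : BD ℂ F, Free c → ∃ C : BD ℂ Q, pb j C = pb ι c + pb (τ.comp ι) c by
    obtain ⟨a, b, ha, hb, rfl⟩ := exists_sub c
    obtain ⟨A, hA⟩ := h a ha
    obtain ⟨B, hB⟩ := h b hb
    exact ⟨A - B, by rw [map_sub, hA, hB, map_sub, map_sub]; abel⟩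
  intro c hc
  obtain ⟨r, s, h0, h1, h2⟩ := hc.exists_fam
  have h3 : ∀ p : Fin (r + 1) × Fin (r + 1), ∃ q : Q,
      j q = ι (s p.1) * τ (ι (s p.2)) + ι (s p.2) * τ (ι (s p.1)) := fun p =>
    (fix _).1 (by simp only [map_add, map_mul, inv]; ring)
  choose q hq using h3
  have m1 : ∀ i, ι (s i) ∈ (pb ι c).Sec := fun i => pb_mem_Sec (h1 i)
  have m2 : ∀ i, τ (ι (s i)) ∈ (pb (τ.comp ι) c).Sec := fun i => pb_mem_Sec (α := τ.comp ι) (h1 i)
  refine ⟨mxf ℂ q, ?_⟩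
  rw [pb_mxf]
  refine (eq_mxf (fun p => ?_) fun V => ?_).symm
  · rw [hq]
    exact add_mem (mul_mem_Sec (m1 _) (m2 _)) (mul_mem_Sec (m1 _) (m2 _))
  · obtain ⟨i, hi⟩ : ∃ i, V.v (ι (s i)) = (pb ι c).val V := by
      rw [eq_mxf h1 h2, pb_mxf]
      exact exists_val_mxf (s := fun i => ι (s i)) ⟨0, (map_ne_zero ι).2 (h0 0)⟩ V
    obtain ⟨k, hk⟩ : ∃ i, V.v (τ (ι (s i))) = (pb (τ.comp ι) c).val V := by
      rw [eq_mxf h1 h2, pb_mxf]
      exact exists_val_mxf (s := fun i => τ (ι (s i))) ⟨0, (map_ne_zero (τ.comp ι)).2 (h0 0)⟩ V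
    rcases (m2 i V).eq_or_lt with h | h
    · exact ⟨(i, i), by rw [hq, ← two_mul, map_mul, v_two, one_mul, map_mul, hi, h, val_add]⟩
    · refine ⟨(i, k), ?_⟩
      rw [hq, Valuation.map_add_eq_of_lt_left, map_mul, hi, hk, val_add]
      rw [map_mul, map_mul, hi, hk]
      exact mul_lt_mul_of_le_of_lt_of_nonneg_of_pos (m1 k V) h zero_le (val_pos _ _)

/-- the wedge of the two generic points -/
abbrev w2 (ι : F →ₐ[ℂ] L) (τ : L →ₐ[ℂ] L) {κ : Type} (y : κ → F) : κ × κ → L :=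
  wd (fun i => ι (y i)) fun i => τ (ι (y i))

theorem tau_w2 (inv : ∀ x, τ (τ x) = x) {κ : Type} (y : κ → F) (p : κ × κ) :
    τ (w2 ι τ y p) = -w2 ι τ y p := by
  simp only [wd, map_sub, map_mul, inv]
  ring

theorem w2_ne {Γ : MvPolynomial (Fin 4) ℂ} (S : Hyp 3 Γ F) (hΓ : Mv99.Qt Γ)
    (pf : IsPF ι (τ.comp ι)) : w2 ι τ S.y (0, 1) ≠ 0 := by
  have h0 : Γ ≠ 0 := fun h => hΓ.2.1 (by rw [h, coeff_zero])
  have h1 : LinearIndependent ℂ ![S.y 0, S.y 1] := by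
    refine LinearIndependent.pair_iff.2 fun s t h => ?_
    have h2 : (C s * X 0 + C t * X 1 : MvPolynomial (Fin 4) ℂ).IsHomogeneous 1 :=
      (isHomogeneous_C_mul_X _ _).add (isHomogeneous_C_mul_X _ _)
    have h3 := (S.ker 1 _ h2).1 (by simpa [Algebra.smul_def] using h)
    have h4 : (C s * X 0 + C t * X 1 : MvPolynomial (Fin 4) ℂ) = 0 := by
      by_contra h4
      have h5 := totalDegree_le_of_dvd_of_isDomain h3 h4
      rw [hΓ.1.totalDegree h0, h2.totalDegree h4] at h5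
      omega
    exact ⟨by simpa using congrArg (eval (Pi.single 0 1)) h4,
      by simpa using congrArg (eval (Pi.single 1 1)) h4⟩
  intro h
  have h2 := Fintype.linearIndependent_iff.1 (pf.indep h1 h1)
    (fun p => if p = (0, 1) then 1 else if p = (1, 0) then -1 else 0)
    (by simpa [Fintype.sum_prod_type, wd, sub_eq_add_neg] using h) (0, 1)
  simp at h2

theorem exists_gam (inv : ∀ x, τ (τ x) = x) (fix : ∀ x, τ x = x ↔ x ∈ j.range) {κ : Type}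
    [Fintype κ] {y : κ → F} {p : κ × κ} (h : w2 ι τ y p ≠ 0) :
    ∃ γ : BD ℂ Q, pb j γ = mxf ℂ (w2 ι τ y) - pr ℂ (w2 ι τ y p) := by
  have h3 : ∀ p', ∃ q : Q, j q = w2 ι τ y p' / w2 ι τ y p := fun p' =>
    (fix _).1 (by rw [map_div₀, tau_w2 inv, tau_w2 inv, neg_div_neg_eq])
  choose q hq using h3
  refine ⟨mxf ℂ q, ?_⟩
  rw [pb_mxf]
  refine (eq_mxf (fun p' V => ?_) fun V => ?_).symm
  · rw [hq, map_div₀, val_sub, val_pr h]
    exact div_le_div_of_nonneg_right (mem_Sec_mxf _ p' V) zero_le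
  · obtain ⟨p', hp⟩ := exists_val_mxf (k := ℂ) ⟨p, h⟩ V
    exact ⟨p', by rw [hq, map_div₀, val_sub, val_pr h, hp]⟩

end Desc

section Rec

variable [Algebra.EssFiniteType ℂ F]

/-- the transform of `g` is `M⁽²⁾ - m δ` -/
def St (N : BD ℂ F → BD ℂ Q → Prop) (g δ : BD ℂ Q) (M : BD ℂ F) (m : ℤ) : Prop :=
  ∃ (θ : Q ≃ₐ[ℂ] Q) (C : BD ℂ Q), N M C ∧ Lin (pb (θ : Q →ₐ[ℂ] Q) g) (C - m • δ)

/-- an involution of Beauville type for the class `q`, on the group `A` -/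
def Bv (N : BD ℂ F → BD ℂ Q → Prop) (δ : BD ℂ Q) (A : AddSubgroup (BD ℂ F)) (q : BD ℂ F) : Prop :=
  ∃ (σ : Q ≃ₐ[ℂ] Q) (γ D : BD ℂ Q), N q D ∧ Lin δ (D - γ) ∧ pb (σ : Q →ₐ[ℂ] Q) γ = γ ∧
    ∀ c ∈ A, ∀ C, N c C → Lin (C + pb (σ : Q →ₐ[ℂ] Q) C) (bnum [c, q] • γ)

variable {N : BD ℂ F → BD ℂ Q → Prop} {g δ : BD ℂ Q} {A : AddSubgroup (BD ℂ F)}

theorem lin_iff {a b : BD ℂ Q} : Lin a b ↔ a - b ∈ (AddSubgroup.closure (Set.range (pr ℂ))) := by
  refine ⟨?_, fun h => ?_⟩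
  · rintro ⟨f, -, rfl⟩
    rw [add_sub_cancel_left]
    exact AddSubgroup.subset_closure ⟨f, rfl⟩
  · have h1 : Lin (a - b) 0 := by
      refine AddSubgroup.closure_induction (p := fun x _ => Lin x 0) ?_ Lin.rfl
        (fun _ _ _ _ h h' => by simpa using h.add h') (fun _ _ h => by simpa using h.neg) h
      rintro _ ⟨f, rfl⟩
      by_cases hf : f = 0
      · rw [hf, pr_zero]
        exact Lin.rfl
      · exact ⟨f, hf, (zero_add _).symm⟩
    simpa using h1.add (Lin.rfl (a := b))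

theorem St.step (hN : ∀ a b C D, ∀ y : ℤ, N a C → N b D → N (y • a - b) (y • C - D)) {q M : BD ℂ F}
    {m : ℤ} (hq : q ∈ A) (h4 : bnum [q, q] = 4) (hB : Bv N δ A q) (hM : M ∈ A)
    (h : St N g δ M m) :
    St N g δ ((bnum [M, q] - 2 * m) • q - M) (bnum [M, q] - 2 * m - m) := by
  obtain ⟨θ, C, h1, h2⟩ := h
  obtain ⟨σ, γ, D, h3, h5, h6, h7⟩ := hB
  refine ⟨θ.trans σ, _, hN _ _ _ _ _ h3 h1, ?_⟩
  have e1 := h2.pb (σ : Q →ₐ[ℂ] Q)
  have e2 := h5.pb (σ : Q →ₐ[ℂ] Q)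
  have e3 := h7 M hM C h1
  have e4 := h7 q hq D h3
  rw [pb_pb, map_sub, map_zsmul] at e1
  rw [map_sub, h6] at e2
  rw [h4] at e4
  rw [lin_iff] at e1 e2 e3 e4 h5 ⊢
  have e5 := add_mem (sub_mem (sub_mem (add_mem e1 e3) (zsmul_mem e2 m)) (zsmul_mem e4 m))
    (zsmul_mem h5 (bnum [M, q] - 2 * m - m))
  convert e5 using 1
  change pb ((σ : Q →ₐ[ℂ] Q).comp (θ : Q →ₐ[ℂ] Q)) g - _ = _
  module

/-- the invariants of the recursion -/
structure Iv (f q q' M : BD ℂ F) (m c : ℤ) : Prop where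
  span : ∃ s α β : ℤ, s ^ 2 = 1 ∧ M = (2 * s) • f + α • q + β • q'
  sq : bnum [M, M] = 2 * m ^ 2 + c

theorem Iv.symm {f q q' M : BD ℂ F} {m c : ℤ} (h : Iv f q q' M m c) : Iv f q' q M m c :=
  ⟨h.span.elim fun s ⟨α, β, h1, h2⟩ => ⟨s, β, α, h1, by rw [h2]; abel⟩, h.sq⟩

theorem Iv.step {f q q' M : BD ℂ F} {m c : ℤ} (h4 : bnum [q, q] = 4) (h : Iv f q q' M m c) :
    Iv f q q' ((bnum [M, q] - 2 * m) • q - M) (bnum [M, q] - 2 * m - m) c := by
  obtain ⟨⟨s, α, β, h1, h2⟩, h3⟩ := h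
  refine ⟨⟨-s, bnum [M, q] - 2 * m - α, -β, by rw [neg_sq, h1], ?_⟩, ?_⟩
  · generalize bnum [M, q] = n
    rw [h2]
    module
  · rw [bnum_sub, bnum_sub2, bnum_sub2, bnum_zsmul, bnum_zsmul, bnum_zsmul2, bnum_zsmul2, h4, h3,
      bnum_swap q M]
    ring

/-- the iteration; `M.q - 2 m` is the next step and `M.q' - 2 m` the last one -/
theorem exists_st (hN : ∀ a b C D, ∀ y : ℤ, N a C → N b D → N (y • a - b) (y • C - D))
    {f : BD ℂ F} {c k : ℤ} (hk : 5 ≤ k) (n : ℕ) : ∀ {q q' M : BD ℂ F} {m : ℤ}, q ∈ A → q' ∈ A →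
    bnum [q, q] = 4 → bnum [q', q'] = 4 → bnum [q, q'] = k → Bv N δ A q → Bv N δ A q' → M ∈ A →
    St N g δ M m → Iv f q q' M m c → 0 < m → 4 * m ≤ bnum [M, q] → bnum [M, q'] ≤ bnum [M, q] →
    ∃ M' ∈ A, ∃ m' : ℤ, bnum [M, q] - 3 * m + n ≤ m' ∧ St N g δ M' m' ∧ Iv f q q' M' m' c := by
  induction n with
  | zero =>
    intro q q' M m a1 _ a3 _ _ a6 _ hM h1 h2 _ _ _
    exact ⟨_, sub_mem (zsmul_mem a1 _) hM, _, by omega, h1.step hN a1 a3 a6 hM, h2.step a3⟩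
  | succ n ih =>
    intro q q' M m a1 a2 a3 a4 a5 a6 a7 hM h1 h2 h3 h4 h5
    have e1 : bnum [(bnum [M, q] - 2 * m) • q - M, q'] = (bnum [M, q] - 2 * m) * k - bnum [M, q'] := by
      rw [bnum_sub, bnum_zsmul, a5]
    have e2 : bnum [(bnum [M, q] - 2 * m) • q - M, q] = (bnum [M, q] - 2 * m) * 4 - bnum [M, q] := by
      rw [bnum_sub, bnum_zsmul, a3]
    have e3 : (bnum [M, q] - 2 * m) * 5 ≤ (bnum [M, q] - 2 * m) * k :=
      mul_le_mul_of_nonneg_left hk (by omega)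
    obtain ⟨M', b1, m', b2, b3, b4⟩ := ih a2 a1 a4 a3 (by rw [bnum_swap, a5]) a7 a6
      (sub_mem (zsmul_mem a1 _) hM) (h1.step hN a1 a3 a6 hM) (h2.step a3).symm (by omega)
      (by omega) (by omega)
    exact ⟨M', b1, m', by omega, b3, b4.symm⟩

/-- the arithmetic of the lattice -/
theorem large {f q q' M : BD ℂ F} {m e : ℤ} (he : 0 < e) (h1 : bnum [q, q] = 4)
    (h2 : bnum [q', q'] = 4) (h3 : bnum [q, q'] = 4 + 4 * e) (h4 : bnum [f, q] = 4 + 6 * e)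
    (h5 : bnum [f, q'] = 4 + 6 * e) (h6 : bnum [f, f] = 4 + 10 * e) (hf : f ∈ A) (hq : q ∈ A)
    (hq' : q' ∈ A) (h : Iv f q q' M m (40 * e - 34)) {D : ℕ} (hD : D * (32 * e ^ 2) ^ 2 ≤ m)
    (hm : 0 < m) {a : BD ℂ F}
    (ha : ∀ b ∈ A, bnum [M, M] * bnum [a, b] = bnum [a, M] * bnum [M, b]) (haA : a ∈ A)
    (h0 : bnum [a, M] ≠ 0) : (D : ℤ) ≤ bnum [a, a] := by
  obtain ⟨⟨s, α, β, hs, hM⟩, h7⟩ := h
  have e1 := ha _ (sub_mem (zsmul_mem hf (4 + 2 * e)) (zsmul_mem (add_mem hq hq') (2 + 3 * e)))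
  have e2 := ha a haA
  have e3 : bnum [M, (4 + 2 * e) • f - (2 + 3 * e) • (q + q')] = -s * (32 * e ^ 2) := by
    rw [hM]
    simp only [bnum_add, bnum_zsmul, bnum_sub2, bnum_add2, bnum_zsmul2, h1, h2, h3, h4, h5, h6,
      bnum_swap q f, bnum_swap q' f, bnum_swap q' q]
    ring
  rw [e3] at e1
  rw [bnum_swap M a] at e2
  generalize bnum [a, (4 + 2 * e) • f - (2 + 3 * e) • (q + q')] = v at e1
  generalize bnum [a, M] = u at e1 e2 h0
  generalize bnum [a, a] = w at e2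
  generalize bnum [M, M] = l at e1 e2 h7
  have hd : 0 < 32 * e ^ 2 := by positivity
  generalize 32 * e ^ 2 = d at e1 hD hd
  have hl : m ≤ l := by nlinarith
  have e4 : l * v ^ 2 = w * d ^ 2 := by
    refine mul_left_cancel₀ (show l ≠ 0 by omega) ?_
    linear_combination (l * v + u * (-s * d)) * e1 + u ^ 2 * d ^ 2 * hs - d ^ 2 * e2
  have hv : v ≠ 0 := by
    rintro rfl
    have : u * d = 0 := by linear_combination s * e1 - u * d * hs
    exact mul_ne_zero h0 hd.ne' this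
  have e5 : 1 ≤ v ^ 2 := by
    have := pow_pos (abs_pos.2 hv) 2
    rwa [sq_abs] at this
  have e6 : D * d ^ 2 ≤ w * d ^ 2 := by nlinarith
  exact le_of_mul_le_mul_right e6 (by positivity)

end Rec

end Crest.Agent.X262.St91
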