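import Crest.Agent.X262.St91.Defs2
import Crest.Agent.X262.St91.Rec
import Crest.Agent.X262.G4.Defs

/-!
# Row 262, G4 / START (helper91): the glue `start_of`
-/

set_option autoImplicit false

open scoped KaehlerDifferential

noncomputable section

namespace Crest.Agent.X262.St91

open Crest.Agent.X277 Crest.Agent.X277.Lef Crest.Agent.X277.AN.G1 Crest.Agent.X277.BD
open Crest.Agent.X277.BD.Br (On oP)
open Crest.Agent.X262.Top (Hyp Lines)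
open Crest.Agent.R274.Prod1_134 (IsPF)

variable {F L Q : Type} [Field F] [Algebra ℂ F] [Field L] [Algebra ℂ L] [Field Q] [Algebra ℂ Q]

variable (F) in
theorem exists_sq : ∃ (L : Type) (_ : Field L) (_ : Algebra ℂ L) (ι : F →ₐ[ℂ] L) (τ : L →ₐ[ℂ] L),
    IsPF ι (τ.comp ι) ∧ ∀ x, τ (τ x) = x := by
  have pf := R274.Prod1_134.isPF ℂ F F
  refine ⟨_, _, _, R274.Prod1_134.pα ℂ F F, (Cns.swap pf).toAlgHom, ?_, DFunLike.congr_fun
    (Cns.pf_ext pf (γ := (Cns.swap pf).toAlgHom.comp (Cns.swap pf).toAlgHom) (γ' := AlgHom.id ℂ _)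
      (by simp) (by simp))⟩
  rwa [show (Cns.swap pf).toAlgHom.comp (R274.Prod1_134.pα ℂ F F) = R274.Prod1_134.pβ ℂ F F from
    AlgHom.ext (Cns.swap_left pf)]

/-- the Plücker vector of a point of the chart -/
def pk (a : Fin 8 → Q) (ij : Fin 6 × Fin 6) : Q :=
  wd ![1, 0, a 0, a 1, a 2, a 3] ![0, 1, a 4, a 5, a 6, a 7] ij

theorem map_pk (j : Q →ₐ[ℂ] L) (a : Fin 8 → Q) (ij : Fin 6 × Fin 6) :
    j (pk a ij) = pk (fun i => j (a i)) ij := by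
  have h1 : ∀ i, j ((![1, 0, a 0, a 1, a 2, a 3] : Fin 6 → Q) i) =
      (![1, 0, j (a 0), j (a 1), j (a 2), j (a 3)] : Fin 6 → L) i := fun i => by
    fin_cases i <;> simp
  have h2 : ∀ i, j ((![0, 1, a 4, a 5, a 6, a 7] : Fin 6 → Q) i) =
      (![0, 1, j (a 4), j (a 5), j (a 6), j (a 7)] : Fin 6 → L) i := fun i => by
    fin_cases i <;> simp
  simp only [pk, wd, map_sub, map_mul, h1, h2]

theorem pb_pk (j : Q →ₐ[ℂ] L) (a : Fin 8 → Q) :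
    pb j (mxf ℂ (pk a)) = mxf ℂ (pk fun i => j (a i)) := by
  rw [pb_mxf]
  exact congrArg _ (funext (map_pk j a))

/-- the transform of the line by an automorphism of the fixed field -/
def twist {G : MvPolynomial (Fin 6) ℂ} (Λ : Lines G F L) (j : Q →ₐ[ℂ] L) (a : Fin 8 → Q)
    (ha : ∀ i, j (a i) = Λ.a i) (fix : ∀ x, Λ.τ x = x ↔ x ∈ j.range) (θ : Q ≃ₐ[ℂ] Q) :
    Lines G F L :=
  { Λ with
    a := fun i => j (θ (a i))
    on := fun q hq => by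
      have h1 : MvPolynomial.aeval a q = 0 := j.toRingHom.injective (by
        have h := Λ.on q hq
        rw [← funext ha] at h
        exact ((MvPolynomial.comp_aeval_apply a j q).trans h).trans (map_zero j).symm)
      have h2 := MvPolynomial.comp_aeval_apply a (j.comp (θ : Q →ₐ[ℂ] Q)) q
      rw [h1, map_zero] at h2
      exact h2.symm
    fix := fun x => by
      have h1 : ∀ γ : Q →ₐ[ℂ] L, IntermediateField.adjoin ℂ (Set.range fun i => γ (a i)) =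
          (IntermediateField.adjoin ℂ (Set.range a)).map γ := fun γ => by
        rw [IntermediateField.adjoin_map, ← Set.range_comp]
        rfl
      have h2 : IntermediateField.adjoin ℂ (Set.range a) = ⊤ := top_unique fun z _ => by
        have h3 := (Λ.fix _).1 ((fix (j z)).2 ⟨z, rfl⟩)
        rw [← funext ha, h1] at h3
        obtain ⟨z', h4, h5⟩ := h3
        rwa [← j.toRingHom.injective h5]
      rw [fix]
      refine ⟨?_, fun h => ?_⟩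
      · rintro ⟨z, rfl⟩
        refine (h1 (j.comp (θ : Q →ₐ[ℂ] Q))).ge ⟨θ.symm z, h2 ▸ trivial, ?_⟩
        simp
      · obtain ⟨z, -, rfl⟩ := (h1 (j.comp (θ : Q →ₐ[ℂ] Q))).le h
        exact ⟨θ z, rfl⟩ }

variable [Algebra.EssFiniteType ℂ F] {ι : F →ₐ[ℂ] L} {τ : L →ₐ[ℂ] L} {j : Q →ₐ[ℂ] L}

theorem bv_of_stmt (hB : BvStmt) {Γ : MvPolynomial (Fin 4) ℂ} (S : Hyp 3 Γ F) (hΓ : Mv99.Qt Γ)
    (hN : NoL Γ) (pf : IsPF ι (τ.comp ι)) (inv : ∀ x, τ (τ x) = x)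
    (fix : ∀ x, τ x = x ↔ x ∈ j.range) {δ : BD ℂ Q} {w : L} (hw : w ≠ 0) (hτ : τ w = -w)
    (hδ : pb j δ = dgl ι (τ.comp ι) S.y + pr ℂ w) {A : AddSubgroup (BD ℂ F)} (hA : A ≤ On S.P) :
    Bv (fun c C => pb j C = pb ι c + pb (τ.comp ι) c) δ A (oP S.P) := by
  obtain ⟨σ, h⟩ := hB Γ F L Q S ι τ j hΓ hN pf inv fix
  have h0 := w2_ne S hΓ pf
  obtain ⟨γ, hγ⟩ := exists_gam inv fix h0
  obtain ⟨D, hD⟩ := exists_sym inv fix (oP S.P)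
  obtain ⟨r, hr⟩ := (fix (w / w2 ι τ S.y (0, 1))).1
    (by rw [map_div₀, hτ, tau_w2 inv, neg_div_neg_eq])
  replace hr : j r = _ := hr
  refine ⟨σ, γ, D, hD, ⟨r, fun h1 => div_ne_zero hw h0 (by rw [← hr, h1, map_zero]),
    pb_injective j ?_⟩, (h γ hγ).1, fun c hc => (h γ hγ).2 c (hA hc)⟩
  rw [hδ, map_add, map_sub, hD, hγ, pb_pr, hr, pr_div hw h0]
  change pb ι (oP S.P) + pb (τ.comp ι) (oP S.P) - mxf ℂ (w2 ι τ S.y) + _ = _
  abel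

/-- **the glue of START** -/
theorem start_of (h1 : CertStmt) (h2 : PfStmt) (h3 : GenStmt) (h4 : OnStmt) (h5 : DegStmt)
    (h6 : NumStmt) (h7 : BvStmt) : G4.StartStmt := by
  intro D
  obtain ⟨ω, c1, c2, c3, c4, ⟨G⟩⟩ := h1
  obtain ⟨F, _, _, _, hd, ⟨Z⟩⟩ := h3 _ G
  obtain ⟨L, _, _, ι, τ, pf, inv⟩ := exists_sq F
  obtain ⟨Λ, rfl, rfl, u, hu, hu', hp⟩ := h2 ω c1 c2 c3 c4 F L Z.p ι τ hd Z.on Z.gen pf inv
  let Q := IntermediateField.adjoin ℂ (Set.range Λ.a)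
  have fix : ∀ x, Λ.τ x = x ↔ x ∈ Q.val.range := fun x =>
    (Λ.fix x).trans ⟨fun h => ⟨⟨x, h⟩, rfl⟩, by rintro ⟨z, rfl⟩; exact z.2⟩
  let a : Fin 8 → Q := fun i => ⟨Λ.a i, IntermediateField.subset_adjoin _ _ ⟨i, rfl⟩⟩
  obtain ⟨o1, o2, o3, o4, o5⟩ := h4 _ G F Z
  have h0 := w2_ne Z.S G.M.qt pf
  obtain ⟨o6, o7⟩ := o5 L Λ.ι (Λ.τ.comp Λ.ι) fun h => h0 (by
    have h' : ∀ x, Λ.τ (Λ.ι x) = Λ.ι x := fun x => (DFunLike.congr_fun h x).symm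
    simp only [wd, h']
    ring)
  obtain ⟨γ, hγ⟩ := exists_gam Λ.inv fix h0
  obtain ⟨C1, hC1⟩ := exists_sym (ι := Λ.ι) Λ.inv fix (oP Z.S.P)
  obtain ⟨Cf, hCf⟩ := exists_sym (ι := Λ.ι) Λ.inv fix (mxf ℂ Z.p)
  set w := w2 Λ.ι Λ.τ Z.S.y (0, 1) with hw
  have hw' : Λ.τ w = -w := tau_w2 Λ.inv _ _
  have hδ : pb Q.val (C1 - γ) = dgl Λ.ι (Λ.τ.comp Λ.ι) Z.S.y + pr ℂ w := by
    rw [map_sub, hC1, hγ]
    change _ = pb Λ.ι (oP Z.S.P) + pb (Λ.τ.comp Λ.ι) (oP Z.S.P) - mxf ℂ (w2 Λ.ι Λ.τ Z.S.y) + _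
    abel
  have b1 := bv_of_stmt h7 Z.S G.M.qt G.M.nl pf Λ.inv fix h0 hw' hδ
    (A := On Z.S.P ⊓ On Z.T.P) inf_le_left
  have b2 := bv_of_stmt h7 Z.T G.N.qt G.N.nl pf Λ.inv fix h0 hw' (by rw [hδ, o6, o7])
    (A := On Z.S.P ⊓ On Z.T.P) inf_le_right
  obtain ⟨e, he, n1, n2, n3, n4⟩ := h6 _ G F Z
  have d1 := (h5 _ F Z.S G.M.qt).2
  have d2 := (h5 _ F Z.T G.N.qt).2
  have m0 : mxf ℂ Z.p ∈ On Z.S.P ⊓ On Z.T.P := ⟨o1, o2⟩
  have m1 : oP Z.S.P ∈ On Z.S.P ⊓ On Z.T.P := ⟨Br.oP_mem, o4⟩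
  have m2 : oP Z.T.P ∈ On Z.S.P ⊓ On Z.T.P := ⟨o3, Br.oP_mem⟩
  obtain ⟨r, hr⟩ := (fix (u * w ^ 5)).1 (by rw [map_mul, map_pow, hu', hw']; ring)
  replace hr : Q.val r = _ := hr
  have s0 : St (fun c C => pb Q.val C = pb Λ.ι c + pb (Λ.τ.comp Λ.ι) c) (mxf ℂ (pk a)) (C1 - γ)
      ((2 : ℤ) • mxf ℂ Z.p) 5 := by
    refine ⟨AlgEquiv.refl, (2 : ℤ) • Cf, by simp only [map_zsmul, hCf, smul_add], r,
      fun h => mul_ne_zero hu (pow_ne_zero 5 h0) (by rw [← hr, h, map_zero]), pb_injective Q.val ?_⟩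
    rw [pb_pb, pb_pk, map_add, map_sub, map_zsmul, map_zsmul, hCf, hδ, pb_pr, hr,
      pr_mul hu (pow_ne_zero 5 h0), pr_pow h0, o6]
    refine hp.trans ?_
    module
  obtain ⟨M, hM, m, k1, ⟨θ, C, k2, z, hz, k3⟩, k4⟩ := exists_st (c := 40 * e - 34)
    (f := mxf ℂ Z.p) (k := 4 + 4 * e) (fun _ _ _ _ y h h' => by
      simp only [map_sub, map_zsmul, h, h']
      module) (by omega) ((D : ℤ) * (32 * e ^ 2) ^ 2).toNat m1 m2 d1 d2 n1 b1 b2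
    (zsmul_mem m0 2) s0 ⟨⟨1, 0, 0, by norm_num, by simp⟩, by
      rw [bnum_zsmul, bnum_zsmul2, n4]
      ring⟩ (by norm_num) (by rw [bnum_zsmul, n2]; omega) (by rw [bnum_zsmul, bnum_zsmul, n2, n3])
  rw [bnum_zsmul, n2] at k1
  obtain ⟨m, rfl⟩ := Int.eq_ofNat_of_zero_le (show 0 ≤ m by omega)
  have : Module.Finite F Ω[F⁄ℂ] := Module.finite_of_finrank_pos (by
    change 0 < dim ℂ F
    omega)
  have hz' : Q.val z ≠ 0 := (map_ne_zero Q.val).2 hz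
  refine ⟨F, _, _, _, L, _, _, ⟨G.M.Γ, G.M.qt, Z.S, Module.finBasisOfFinrankEq F _ hd, _, c2,
    twist Λ Q.val a (fun _ => rfl) fix θ, pf, M, hM.1,
    by rw [k4.sq]; nlinarith [sq_nonneg (m : ℤ)],
    m, by omega, Q.val z / w ^ m, div_ne_zero hz' (pow_ne_zero _ h0), ?_, ?_⟩,
    fun b hb h h' => ?_⟩
  · change Λ.τ _ = _
    rw [map_div₀, map_pow, hw', (fix (Q.val z)).2 ⟨z, rfl⟩, neg_pow w, ← mul_div_assoc,
      div_eq_div_iff (mul_ne_zero (by simp) (pow_ne_zero _ h0)) (pow_ne_zero _ h0),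
      mul_mul_mul_comm, ← mul_pow]
    simp
  · have k5 := congrArg (pb Q.val) k3
    rw [pb_pb, pb_pk, map_add, map_sub, map_zsmul, k2, hδ, pb_pr] at k5
    rw [pr_div hz' (pow_ne_zero _ h0), pr_pow h0]
    refine k5.trans ?_
    change _ = pb Λ.ι M + pb (Λ.τ.comp Λ.ι) M - m • dgl Λ.ι (Λ.τ.comp Λ.ι) Z.S.y + _
    module
  · exact large (A := On Z.S.P) he d1 d2 n1 n2 n3 n4 o1 Br.oP_mem o3 k4 (by omega) (by omega) h hb
      h'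

end Crest.Agent.X262.St91
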