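import Crest.Agent.X262.St91.Glue
import Crest.Agent.X262.Pf19.Main
import Crest.Agent.X262.Bv3.Main
import Crest.Agent.X262.Pic28.Main
import Crest.Agent.X262.StOn.On
import Crest.Agent.X262.StOn.Gen
import Crest.Agent.X262.StNum81.Num

/-!
# Row 262, G4 / START (helper91): `G4.StartStmt` from the example
-/

set_option autoImplicit false

namespace Crest.Agent.X262.St91

/-- **START from the example** -/
theorem start_of_cert (h : CertStmt) : G4.StartStmt :=
  start_of h Pf19.pfStmt StOn.genStmt StOn.onStmt StNum.degStmt (StNum.numStmt StOn.onStmt)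
    (Bv3.bv_of Pic28.picStmt StNum.degStmt)

end Crest.Agent.X262.St91
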