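import Crest.Agent.X262.St91.Nf0
import Crest.Agent.X262.Brg.Cubic

/-!
# Row 262, G4 / START (helper91): the geometry of the example from its normal forms

* `NF om`       : coordinates in which `S₁₄` contains the standard rational quartic curve;
* `NF.qm`       : the quartic model; `Img M N` : the image of the curve of `M` on `N`;
* `geo_of_nf`   : the data `Geo`; `w_of_mat` : the field `NF.w` from matrices.
-/

set_option autoImplicit false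

open MvPolynomial

noncomputable section

namespace Crest.Agent.X262.St91

open Crest.Agent.X262.Pf19 (Om Skew NoLine)
open Crest.Agent.X262.Mv99 (Qt)

/-- the action of a matrix on bivectors -/
def g2 (g : Fin 6 → Fin 6 → ℂ) (ij kl : I2) : ℂ := g ij.1 kl.1 * g ij.2 kl.2

theorem ln_g2 (g : Fin 6 → Fin 6 → ℂ) (u v : Fin 6 → ℂ) :
    ln (g2 g) (Pf19.wd u v) = Pf19.wd (ln g u) (ln g v) := by
  funext ⟨i, j⟩
  simp only [ln, g2, Pf19.wd, Fintype.sum_prod_type, Finset.sum_mul_sum, Algebra.algebraMap_self,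
    RingHom.id_apply, mul_sub, Finset.sum_sub_distrib]
  congr 1
  · exact Finset.sum_congr rfl fun k _ => Finset.sum_congr rfl fun l _ => by ring
  · rw [Finset.sum_comm]
    exact Finset.sum_congr rfl fun k _ => Finset.sum_congr rfl fun l _ => by ring

/-- `ln` as a linear map -/
def lL {ι κ : Type} [Fintype κ] (π : ι → κ → ℂ) : (κ → ℂ) →ₗ[ℂ] ι → ℂ where
  toFun := ln π
  map_add' u v := funext fun i => by simp [ln, mul_add, Finset.sum_add_distrib]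
  map_smul' c u := funext fun i => by simp [ln, Finset.mul_sum, mul_left_comm c]

/-- `yz` as a linear map -/
def yL : (I2 → ℂ) →ₗ[ℂ] Fin 10 → ℂ where
  toFun := yz
  map_add' u v := funext fun i => by fin_cases i <;> simp [yz] <;> ring
  map_smul' c u := funext fun i => by fin_cases i <;> simp [yz] <;> ring

/-- an entry of `AA` as a linear form -/
def aL (r : Fin 4) (m : Fin 6) : (Fin 10 → ℂ) →ₗ[ℂ] ℂ where
  toFun c := AA c r m
  map_add' u v := by fin_cases r <;> fin_cases m <;> simp [AA]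
  map_smul' c u := by fin_cases r <;> fin_cases m <;> simp [AA]

/-- the matrix of a linear map -/
def mt {ι κ : Type} [DecidableEq κ] (φ : (κ → ℂ) →ₗ[ℂ] ι → ℂ) (i : ι) (k : κ) : ℂ :=
  φ (Pi.single k 1) i

theorem ln_mt {ι κ : Type} [Fintype κ] [DecidableEq κ] (φ : (κ → ℂ) →ₗ[ℂ] ι → ℂ) (P : κ → ℂ) :
    ln (mt φ) P = φ P := by
  funext i
  conv_rhs => rw [pi_eq_sum_univ' P]
  simp [ln, mt, mul_comm]

/-- the matrix of the forms `x ↦ z_r (x) . a (t)` -/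
def zm {R : Type} [CommRing R] [Algebra ℂ R] (E : Fin 10 → Fin 4 → ℂ) (t : Fin 2 → R) (k : Fin 4) :
    Fin 3 → R := za (fun s => algebraMap ℂ R (E s k)) t

theorem za_ln (E : Fin 10 → Fin 4 → ℂ) (t : Fin 2 → ℂ) (x : Fin 4 → ℂ) (r : Fin 3) :
    za (ln E x) t r = ∑ k, x k * zm E t k r := by
  fin_cases r <;> simp [za, zm, ln, Fin.sum_univ_four] <;> ring

/-- a normal form -/
structure NF (om : Fin 6 → I2 → ℂ) where
  /-- the change of coordinates -/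
  g : Fin 6 → Fin 6 → ℂ
  /-- its inverse -/
  g' : Fin 6 → Fin 6 → ℂ
  gg' : ∀ u : Fin 6 → ℂ, ln g (ln g' u) = u
  g'g : ∀ u : Fin 6 → ℂ, ln g' (ln g u) = u
  /-- the linear space -/
  E : Fin 10 → Fin 4 → ℂ
  /-- coordinates on it -/
  p0 : Fin 4 → Fin 10 → ℂ
  pE : ∀ x : Fin 4 → ℂ, ln p0 (ln E x) = x
  w : ∀ u v : Fin 6 → ℂ, ln om (Pf19.wd u v) = 0 ↔
    yz (Pf19.wd (ln g u) (ln g v)) = ln E (ln p0 (yz (Pf19.wd (ln g u) (ln g v))))
  /-- the quartic -/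
  Γ : MvPolynomial (Fin 4) ℂ
  hΓ : ∀ x, eval x Γ = gU (ln E x)
  qt : Qt Γ
  nl : NoL Γ
  rk2 : ∀ x : Fin 4 → ℂ, x ≠ 0 → nn (ln E x) ≠ 0
  rk3 : ∀ t : Fin 2 → ℂ, t ≠ 0 → x4 (zm E t) ≠ 0

/-- the field `w` from matrices -/
theorem w_of_mat {om : Fin 6 → I2 → ℂ} {g : Fin 6 → Fin 6 → ℂ} {E : Fin 10 → Fin 4 → ℂ}
    {p0 : Fin 4 → Fin 10 → ℂ} (K : Fin 6 → Fin 10 → ℂ) (H : Fin 10 → Fin 6 → ℂ)
    (h1 : ∀ u v : Fin 6 → ℂ, ln om (Pf19.wd u v) = ln K (yz (Pf19.wd (ln g u) (ln g v))))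
    (h2 : ∀ x : Fin 4 → ℂ, ln K (ln E x) = 0)
    (h3 : ∀ c : Fin 10 → ℂ, ln E (ln p0 c) + ln H (ln K c) = c) (u v : Fin 6 → ℂ) :
    ln om (Pf19.wd u v) = 0 ↔
      yz (Pf19.wd (ln g u) (ln g v)) = ln E (ln p0 (yz (Pf19.wd (ln g u) (ln g v)))) := by
  rw [h1]
  refine ⟨fun h => ?_, fun h => by rw [h, h2]⟩
  have h4 := h3 (yz (Pf19.wd (ln g u) (ln g v)))
  rw [h, show ln H (0 : Fin 6 → ℂ) = 0 from map_zero (lL H), add_zero] at h4
  exact h4.symm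

namespace NF

variable {om : Fin 6 → I2 → ℂ} (M : NF om)

/-- the projection -/
def πL : (I2 → ℂ) →ₗ[ℂ] Fin 4 → ℂ := lL M.p0 ∘ₗ yL ∘ₗ lL (g2 M.g)

theorem πL_wd (u v : Fin 6 → ℂ) :
    M.πL (Pf19.wd u v) = ln M.p0 (yz (Pf19.wd (ln M.g u) (ln M.g v))) := by
  rw [← ln_g2]
  rfl

theorem E_πL {u v : Fin 6 → ℂ} (h : ln om (Pf19.wd u v) = 0) :
    ln M.E (M.πL (Pf19.wd u v)) = yz (Pf19.wd (ln M.g u) (ln M.g v)) := by
  rw [πL_wd, ← (M.w u v).1 h]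

/-- the relations -/
def RL (x : Fin 4 → ℂ) (P : I2 → ℂ) : Prop :=
  Par x (M.πL P) ∧ ∀ r k, ∑ m, AA (ln M.E x) r m * ln (g2 M.g) P (m, k) = 0

theorem exists_B : ∃ (r : ℕ) (B : Fin r → Fin 4 → I2 → ℂ), ∀ x P, Rel B x P ↔ M.RL x P := by
  obtain ⟨r, B, h⟩ := exists_rel (κ := Fin 4 × Fin 4 ⊕ Fin 4 × Fin 6) (Sum.elim
    (fun ij => (LinearMap.mul ℂ ℂ).compl₁₂ (LinearMap.proj ij.1) (LinearMap.proj ij.2 ∘ₗ M.πL) -
      (LinearMap.mul ℂ ℂ).compl₁₂ (LinearMap.proj ij.2) (LinearMap.proj ij.1 ∘ₗ M.πL))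
    fun rk => ∑ m, (LinearMap.mul ℂ ℂ).compl₁₂ (aL rk.1 m ∘ₗ lL M.E)
      (LinearMap.proj (m, rk.2) ∘ₗ lL (g2 M.g)))
  refine ⟨r, B, fun x P => (h x P).trans ?_⟩
  simp [RL, Par, sub_eq_zero, aL, lL]

variable {M}

theorem rl_wd {x : Fin 4 → ℂ} {u v : Fin 6 → ℂ} (h : Par x (M.πL (Pf19.wd u v)))
    (h1 : ∀ r, ∑ m, AA (ln M.E x) r m * ln M.g u m = 0)
    (h2 : ∀ r, ∑ m, AA (ln M.E x) r m * ln M.g v m = 0) : M.RL x (Pf19.wd u v) :=
  ⟨h, fun r k => by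
    have e : ∀ m, AA (ln M.E x) r m * Pf19.wd (ln M.g u) (ln M.g v) (m, k) =
        AA (ln M.E x) r m * ln M.g u m * ln M.g v k - AA (ln M.E x) r m * ln M.g v m * ln M.g u k :=
      fun m => by simp only [Pf19.wd]; ring
    simp only [ln_g2, e, Finset.sum_sub_distrib, ← Finset.sum_mul, h1, h2, zero_mul, sub_zero]⟩

theorem wd_g_ne {u v : Fin 6 → ℂ} (h : Pf19.wd u v ≠ 0) : Pf19.wd (ln M.g u) (ln M.g v) ≠ 0 :=
  fun h0 => h (by
    rw [← M.g'g u, ← M.g'g v, ← ln_g2, h0]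
    exact map_zero (lL (g2 M.g')))

theorem RL.ker {x : Fin 4 → ℂ} {u v : Fin 6 → ℂ} (h : M.RL x (Pf19.wd u v)) (h0 : Pf19.wd u v ≠ 0)
    (r : Fin 4) : ∑ m, AA (ln M.E x) r m * ln M.g u m = 0 ∧
      ∑ m, AA (ln M.E x) r m * ln M.g v m = 0 := by
  obtain ⟨⟨i, j⟩, hij⟩ := Function.ne_iff.1 (wd_g_ne (M := M) h0)
  have e : ∀ k, (∑ m, AA (ln M.E x) r m * ln M.g u m) * ln M.g v k -
      (∑ m, AA (ln M.E x) r m * ln M.g v m) * ln M.g u k = 0 := fun k => by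
    rw [← h.2 r k, ln_g2, Finset.sum_mul, Finset.sum_mul, ← Finset.sum_sub_distrib]
    exact Finset.sum_congr rfl fun m _ => by simp only [Pf19.wd]; ring
  simp only [Pf19.wd, Pi.zero_apply] at hij
  exact ⟨(mul_eq_zero.1 (by linear_combination ln M.g u i * e j - ln M.g u j * e i)).resolve_right
    hij, (mul_eq_zero.1 (by linear_combination ln M.g v i * e j - ln M.g v j * e i)).resolve_right hij⟩

end NF

/-- the two parameters of a point of the curve -/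
def tp (k : Fin 2) : (I2 → ℂ) →ₗ[ℂ] Fin 2 → ℂ :=
  LinearMap.funLeft ℂ ℂ (![![(0, 3), (0, 4)], ![(1, 5), (2, 5)]] k)

theorem hankel {u v : Fin 6 → ℂ} (h : yz (Pf19.wd u v) = 0) :
    (∀ k, Pf19.wd (aU (tp k (Pf19.wd u v))) (aV (tp k (Pf19.wd u v))) =
      tp k (Pf19.wd u v) k ^ 3 • Pf19.wd u v) ∧
    ((∀ k, tp k (Pf19.wd u v) k = 0) → Pf19.wd u v = 0) := by
  have pl : ∀ i j k l, Pf19.wd u v (i, j) * Pf19.wd u v (k, l) - Pf19.wd u v (i, k) *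
      Pf19.wd u v (j, l) + Pf19.wd u v (i, l) * Pf19.wd u v (j, k) = 0 := fun i j k l => by
    simp only [Pf19.wd]
    ring
  have sk : ∀ i j, Pf19.wd u v (i, j) = -Pf19.wd u v (j, i) := fun i j => by
    simp only [Pf19.wd]
    ring
  have s0 : ∀ i, Pf19.wd u v (i, i) = 0 := fun i => sub_self _
  generalize Pf19.wd u v = P at h pl sk s0
  have c := congrFun h
  have c0 := c 0
  have c1 := c 1
  have c2 := c 2
  have c3 := c 3
  have c4 := c 4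
  have c5 := c 5
  have c6 := c 6
  have c7 := c 7
  have c8 := c 8
  have c9 := c 9
  simp [yz, sub_eq_zero] at c0 c1 c2 c3 c4 c5 c6 c7 c8 c9
  have e1 : P (1, 4) = P (0, 5) := by linear_combination -c0 / 2 + c5 / 2
  have p1 := pl 0 1 3 4
  have p2 := pl 0 1 3 5
  have p3 := pl 0 1 4 5
  have p4 := pl 0 2 3 5
  have p5 := pl 1 2 4 5
  have p6 := pl 0 2 4 5
  rw [c3, ← c6, e1] at p1
  rw [c3, ← c6] at p2
  rw [c3, e1] at p3
  rw [sk 0 2, c2, c5] at p4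
  rw [c1, ← c4, e1] at p5
  rw [sk 0 2, c2, ← c4] at p6
  have d02 : P (0, 2) = 0 := by rw [sk, c2, neg_zero]
  have d35 : P (3, 5) = 0 := by rw [sk, c8, neg_zero]
  refine ⟨fun k => funext fun ⟨i, j⟩ => ?_, fun hk => funext fun ⟨i, j⟩ => ?_⟩
  · fin_cases k <;> fin_cases i <;> fin_cases j <;>
      simp [Pf19.wd, aU, aV, tp, s0, c1, c2, c3, c7, c8, c9, d02, d35, sk 1 0, sk 2 1, sk 4 3,
        sk 5 4, sk 3 0, sk 3 1, sk 3 2, sk 4 0, sk 4 1, sk 4 2, sk 5 0, sk 5 1, sk 5 2, c5, ← c6,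
        ← c4, e1] <;>
      grind
  · have k0 : P (0, 3) = 0 := hk 0
    have k4 : P (2, 5) = 0 := hk 1
    have k2 : P (0, 5) = 0 := by simpa [k0] using p4
    have k1 : P (0, 4) = 0 := by simpa [k0] using p1
    have k3 : P (1, 5) = 0 := by simpa [k4] using p5
    fin_cases i <;> fin_cases j <;>
      simp [s0, c1, c2, c3, c7, c8, c9, d02, d35, sk 1 0, sk 2 1, sk 4 3, sk 5 4, sk 3 0, sk 3 1,
        sk 3 2, sk 4 0, sk 4 1, sk 4 2, sk 5 0, sk 5 1, sk 5 2, c5, ← c6, ← c4, e1, k0, k1, k2, k3, k4]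

theorem par_smul {ι : Type} (c : ℂ) (x : ι → ℂ) : Par x (c • x) := fun i j => by
  simp only [Pi.smul_apply, smul_eq_mul]
  ring

theorem par_trans {ι : Type} {x y z : ι → ℂ} (h : Par x y) (h' : Par z y) (h0 : y ≠ 0) : Par x z := by
  obtain ⟨k, hk⟩ := Function.ne_iff.1 h0
  intro i j
  refine mul_right_cancel₀ (mul_ne_zero hk hk) ?_
  linear_combination z j * y k * h i k + x k * y i * h' j k - z i * y k * h j k - x k * y j * h' i k

theorem wd_a_ne {t : Fin 2 → ℂ} (ht : t ≠ 0) : Pf19.wd (aU t) (aV t) ≠ 0 := fun h => ht (by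
  have h0 := congrFun h (0, 3)
  have h1 := congrFun h (2, 5)
  simp [Pf19.wd, aU, aV] at h0 h1
  exact funext (Fin.forall_fin_two.2 ⟨h0, h1⟩))

theorem eval_aU (t : Fin 2 → ℂ) : (fun j => eval t (aU X j)) = aU t := by
  funext j
  fin_cases j <;> simp [aU]

theorem eval_aV (t : Fin 2 → ℂ) : (fun j => eval t (aV X j)) = aV t := by
  funext j
  fin_cases j <;> simp [aV]

theorem eval_wd {σ : Type} (g : Fin 6 → Fin 6 → ℂ) (U V : Fin 6 → MvPolynomial σ ℂ) (x : σ → ℂ) :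
    (fun i => eval x (Pf19.wd (lr g U) (lr g V) i)) =
      Pf19.wd (ln g fun j => eval x (U j)) (ln g fun j => eval x (V j)) := by
  funext i
  simp only [Pf19.wd, map_sub, map_mul, eval_lr]

theorem eval_lrX (E : Fin 10 → Fin 4 → ℂ) (x : Fin 4 → ℂ) (i : Fin 10) :
    eval x (lr E X i) = ln E x i := by
  simp [eval_lr]

theorem cv_eq {ι : Type} (A : ι → MvPolynomial (Fin 2) ℂ) (t : Fin 2 → ℂ) :
    cv A t = fun i => eval t (A i) := funext fun _ => coe_aeval_eq_eval t ▸ rfl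

namespace NF

variable {ω : Om} (hs : Skew ω) (hl : NoLine ℂ ω) (M N : NF (omI ω))

theorem za_of_rl {x : Fin 4 → ℂ} {t : Fin 2 → ℂ} (ht : t ≠ 0)
    (h : M.RL x (Pf19.wd (ln M.g' (aU t)) (ln M.g' (aV t)))) (r : Fin 3) :
    ∑ k, x k * zm M.E t k r = 0 := by
  have h0 : Pf19.wd (ln M.g' (aU t)) (ln M.g' (aV t)) ≠ 0 := fun h0 => wd_a_ne ht (by
    rw [← M.gg' (aU t), ← M.gg' (aV t), ← ln_g2, h0]
    exact map_zero (lL (g2 M.g)))
  have h1 := (h.ker h0 r.castSucc).1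
  rw [M.gg'] at h1
  rw [← za_ln]
  fin_cases r <;> simpa [Fin.sum_univ_six, AA, aU, za] using h1

theorem RL.smul {M : NF (omI ω)} {x : Fin 4 → ℂ} {P : I2 → ℂ} (h : M.RL x P) (c : ℂ) :
    M.RL x (c • P) :=
  ⟨fun i j => by
    simp only [map_smul, Pi.smul_apply, smul_eq_mul]
    linear_combination c * h.1 i j, fun r k => by
    rw [show ln (g2 M.g) (c • P) = c • ln (g2 M.g) P from map_smul (lL (g2 M.g)) c P]
    simp only [Pi.smul_apply, smul_eq_mul, mul_left_comm _ c, ← Finset.mul_sum, h.2, mul_zero]⟩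

/-- the parameters -/
def τL (k : Fin 2) : (I2 → ℂ) →ₗ[ℂ] Fin 2 → ℂ := tp k ∘ₗ lL (g2 M.g)

theorem sur {P : I2 → ℂ} (h : OnS (omI ω) P) (h0 : M.πL P = 0) : (∃ k, M.τL k P k ≠ 0) ∧
    ∀ k, Pf19.wd (ln M.g' (aU (M.τL k P))) (ln M.g' (aV (M.τL k P))) = M.τL k P k ^ 3 • P := by
  obtain ⟨u, v, rfl⟩ := exists_frame h
  have h1 := M.E_πL h.lin
  rw [h0, show ln M.E (0 : Fin 4 → ℂ) = 0 from map_zero (lL M.E)] at h1
  obtain ⟨h2, h3⟩ := hankel h1.symm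
  have e : ∀ k, M.τL k (Pf19.wd u v) = tp k (Pf19.wd (ln M.g u) (ln M.g v)) := fun k => by
    rw [← ln_g2]
    rfl
  simp only [e]
  refine ⟨not_forall.1 fun h4 => wd_g_ne h.ne (h3 h4), fun k => ?_⟩
  rw [← ln_g2, h2]
  refine (map_smul (lL (g2 M.g')) _ _).trans ?_
  congr 1
  change ln (g2 M.g') _ = _
  rw [ln_g2, M.g'g, M.g'g]

theorem on {P : I2 → ℂ} (h : OnS (omI ω) P) : eval (M.πL P) M.Γ = 0 := by
  obtain ⟨u, v, rfl⟩ := exists_frame h
  rw [M.hΓ, M.E_πL h.lin, gU_yz]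

/-- the quartic model -/
def qm : QM (omI ω) where
  Γ := M.Γ
  qt := M.qt
  nl := M.nl
  π := mt M.πL
  r := M.exists_B.choose
  B := M.exists_B.choose_spec.choose
  on P h := by rw [ln_mt, M.on h]
  rel P h := by
    obtain ⟨u, v, rfl⟩ := exists_frame h
    rw [ln_mt, M.exists_B.choose_spec.choose_spec]
    refine rl_wd (fun _ _ => mul_comm _ _) (fun r => ?_) fun r => ?_ <;> rw [M.E_πL h.lin]
    exacts [AA_left _ _ r, AA_right _ _ r]
  uP x P P' hx h h' r r' := by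
    obtain ⟨u, v, rfl⟩ := exists_frame h
    obtain ⟨u', v', rfl⟩ := exists_frame h'
    rw [M.exists_B.choose_spec.choose_spec] at r r'
    refine par_of_dep hs hl h h' fun hi => dep_of_ker (M.rk2 x hx)
      (w := lL M.g ∘ ![u, v, u', v']) (fun k s => ?_) (hi.map' _ (LinearMap.ker_eq_bot.2
        (Function.LeftInverse.injective M.g'g)))
    fin_cases k
    exacts [(r.ker h.ne s).1, (r.ker h.ne s).2, (r'.ker h'.ne s).1, (r'.ker h'.ne s).2]
  ux x x' P h r r' := by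
    rw [M.exists_B.choose_spec.choose_spec] at r r'
    by_cases h0 : M.πL P = 0
    · obtain ⟨⟨k, hk⟩, h1⟩ := M.sur h h0
      have ht : M.τL k P ≠ 0 := fun h2 => hk (congrFun h2 k)
      exact par_trans (x4_par _ (M.za_of_rl ht (h1 k ▸ r.smul _)))
        (x4_par _ (M.za_of_rl ht (h1 k ▸ r'.smul _))) (M.rk3 _ ht)
    · exact par_trans r.1 r'.1 h0

theorem rel_iff (x : Fin 4 → ℂ) (P : I2 → ℂ) : Rel (M.qm hs hl).B x P ↔ M.RL x P :=
  M.exists_B.choose_spec.choose_spec x P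

/-- the curve -/
def cA (t : Fin 2 → ℂ) : I2 → ℂ := Pf19.wd (ln M.g' (aU t)) (ln M.g' (aV t))

theorem πL_cA (t : Fin 2 → ℂ) : M.πL (M.cA t) = 0 := by
  rw [cA, πL_wd, M.gg', M.gg', yz_a]
  exact map_zero (lL M.p0)

theorem ons_cA {t : Fin 2 → ℂ} (ht : t ≠ 0) : OnS (omI ω) (M.cA t) := by
  refine ons_wd (fun h0 => wd_a_ne ht ?_) ((M.w _ _).2 ?_)
  · rw [← M.gg' (aU t), ← M.gg' (aV t), ← ln_g2, h0]
    exact map_zero (lL (g2 M.g))
  · rw [M.gg', M.gg', yz_a, show ln M.p0 (0 : Fin 10 → ℂ) = 0 from map_zero (lL M.p0)]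
    exact (map_zero (lL M.E)).symm

end NF

/-- the image of the curve of `M` on the model `N` is a conic -/
structure Img {ω : Om} (M N : NF (omI ω)) where
  /-- the conic -/
  Y : Fin 4 → MvPolynomial (Fin 2) ℂ
  hY : ∀ i, (Y i).IsHomogeneous 2
  /-- the equation of the common points -/
  q : MvPolynomial (Fin 2) ℂ
  q_ne : q ≠ 0
  eq : ∀ t, N.πL (M.cA t) = eval t q • cv Y t
  ne : ∀ t : Fin 2 → ℂ, t ≠ 0 → cv Y t ≠ 0

section Geo

variable {ω : Om} (hs : Skew ω) (hl : NoLine ℂ ω) {M N : NF (omI ω)}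

theorem cv_A (t : Fin 2 → ℂ) :
    cv (Pf19.wd (lr M.g' (aU X)) (lr M.g' (aV X))) t = M.cA t := by
  rw [cv_eq, eval_wd, eval_aU, eval_aV]
  rfl

theorem cv_X (t : Fin 2 → ℂ) : cv (x4 (zm M.E X)) t = x4 (zm M.E t) := by
  rw [cv_eq]
  funext i
  fin_cases i <;> simp [x4, d3, cr, zm, za]

theorem Img.rel (I : Img M N) (t : Fin 2 → ℂ) : Rel (N.qm hs hl).B (cv I.Y t) (M.cA t) := by
  intro a
  let A := Pf19.wd (lr M.g' (aU X)) (lr M.g' (aV (X : Fin 2 → MvPolynomial (Fin 2) ℂ)))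
  have e : ∀ t, eval t (∑ i, I.Y i * lr ((N.qm hs hl).B a) A i) =
      ∑ i, cv I.Y t i * ln ((N.qm hs hl).B a) (M.cA t) i := fun t => by
    simp only [map_sum, map_mul, eval_lr, ← cv_A, cv_eq, A]
  have h : X 0 * I.q * ∑ i, I.Y i * lr ((N.qm hs hl).B a) A i = 0 := MvPolynomial.funext fun t => by
    by_cases ht : t = 0
    · simp [ht]
    · have h1 := (N.qm hs hl).rel _ (M.ons_cA ht) a
      rw [show ln (N.qm hs hl).π (M.cA t) = N.πL (M.cA t) from ln_mt _ _, I.eq] at h1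
      simp only [Pi.smul_apply, smul_eq_mul, mul_assoc, ← Finset.mul_sum] at h1
      rw [map_mul, map_mul, e, mul_assoc, h1, mul_zero, map_zero]
  rw [← e, (mul_eq_zero.1 h).resolve_left (mul_ne_zero (X_ne_zero 0) I.q_ne), map_zero]

/-- the curve of a normal form -/
def Img.crv (I : Img M N) : Crv (M.qm hs hl) (N.qm hs hl) where
  A := Pf19.wd (lr M.g' (aU X)) (lr M.g' (aV X))
  X := x4 (zm M.E X)
  Y := I.Y
  hA := (hg_aU.lr _).wd (hg_aV.lr _)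
  hX := Hg.x4 fun k r => by
    have h : ∀ a b c : ℂ, (C a * (X 0 * X 0) + C b * (X 0 * X 1) + C c * (X 1 * X 1) :
        MvPolynomial (Fin 2) ℂ).IsHomogeneous 2 := fun a b c =>
      (((hg_aU 0).C_mul a).add ((hg_aU 1).C_mul b)).add ((hg_aU 2).C_mul c)
    fin_cases r <;> exact h _ _ _
  hY := I.hY
  on t ht := by
    have h : za (ln M.E (x4 (zm M.E t))) t = 0 := funext fun r => by rw [za_ln, x4_rel]; rfl
    rw [cv_A, cv_X]
    refine ⟨M.ons_cA ht, M.rk3 t ht, I.ne t ht, (M.rel_iff hs hl _ _).2 (NF.rl_wd ?_ ?_ ?_),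
      I.rel hs hl t, (ln_mt _ _).trans (M.πL_cA t), (M.hΓ _).trans (gU_of_za ht h)⟩
    · change Par _ (M.πL (M.cA t))
      rw [M.πL_cA t]
      exact fun _ _ => by simp
    · exact fun r => (M.gg' _).symm ▸ (AA_a _ t h r).1
    · exact fun r => (M.gg' _).symm ▸ (AA_a _ t h r).2
  τ k := mt (M.τL k)
  sur P h h0 := by
    obtain ⟨⟨k, hk⟩, h1⟩ := M.sur h ((ln_mt _ _).symm.trans h0)
    simp only [ln_mt, cv_A]
    exact ⟨⟨k, fun h2 => hk (congrFun h2 k)⟩, fun k => by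
      rw [NF.cA, h1 k]
      exact par_smul _ P⟩

theorem exists_dd (M : NF (omI ω)) (hd : ∃ x : Fin 4 → ℂ, dd (ln M.E x) ≠ 0) :
    ∃ x : Fin 4 → ℂ, eval x M.Γ = 0 ∧ dd (ln M.E x) ≠ 0 := by
  by_contra! h
  obtain ⟨x, hx⟩ := hd
  have e : ∀ x : Fin 4 → ℂ, eval x (dd (lr M.E X)) = dd (ln M.E x) := fun x => by
    simp [dd, nn, cr, zz, eval_lrX]
  have hD : (dd (lr M.E X) : MvPolynomial (Fin 4) ℂ).IsHomogeneous 3 := (hg_X.lr _).dd
  have hp := Brg.Cubic.prime_deh (n := 3) (by norm_num) (by norm_num) M.qt.1 M.qt.2.2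
  have h1 : Brg.Cubic.deh (dd (lr M.E X)) ∈ (Ideal.span {Brg.Cubic.deh M.Γ}).radical := by
    rw [← vanishingIdeal_zeroLocus_eq_radical (K := ℂ), mem_vanishingIdeal_iff]
    intro y hy
    have h2 := mem_zeroLocus_iff.1 hy _ (Ideal.subset_span rfl)
    change eval y _ = 0 at h2 ⊢
    rw [Brg.Cubic.eval_deh] at h2 ⊢
    rw [e, h _ h2]
  rw [((Ideal.span_singleton_prime hp.ne_zero).2 hp).radical, Ideal.mem_span_singleton] at h1
  obtain ⟨c, hc⟩ := h1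
  have h2 : X 0 ^ (c.totalDegree + 1) * dd (lr M.E X) = M.Γ * Brg.Cubic.hom c.totalDegree c := by
    refine Brg.Cubic.eq_of_deh (d := c.totalDegree + 1 + 3) ((isHomogeneous_X_pow _ _).mul hD)
      (by rw [show c.totalDegree + 1 + 3 = 4 + c.totalDegree by ring]
          exact M.qt.1.mul (Brg.Cubic.hom_isHomogeneous _ _)) ?_
    rw [map_mul, map_mul, map_pow, Brg.Cubic.deh_X0, one_pow, one_mul, Brg.Cubic.deh_hom le_rfl, hc]
  have h3 : ¬X 0 ∣ M.Γ := fun ⟨r, hr⟩ => M.qt.2.1 (by rw [hr, coeff_X_mul']; simp)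
  obtain ⟨r, hr⟩ := X_prime.pow_dvd_of_dvd_mul_left _ h3 ⟨_, h2.symm⟩
  rw [hr, mul_left_comm] at h2
  have h4 := totalDegree_le_of_dvd_of_isDomain
    ⟨r, mul_left_cancel₀ (pow_ne_zero _ (X_ne_zero 0)) h2⟩ fun h5 => hx (by rw [← e, h5, map_zero])
  rw [M.qt.1.totalDegree fun h5 => M.qt.2.1 (by rw [h5, coeff_zero])] at h4
  exact absurd (h4.trans hD.totalDegree_le) (by norm_num)

/-- **the data of the example from two normal forms** -/
def geo_of_nf (a : Img M N) (b : Img N M) (hd : ∃ x : Fin 4 → ℂ, dd (ln M.E x) ≠ 0) :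
    Geo (omI ω) := by
  have e : ∀ x : Fin 4 → ℂ,
      (fun i => eval x (Pf19.wd (lr M.g' (fU (lr M.E X))) (lr M.g' (fV (lr M.E X))) i)) =
      Pf19.wd (ln M.g' (fU (ln M.E x))) (ln M.g' (fV (ln M.E x))) := fun x => by
    rw [eval_wd]
    congr 2 <;> funext j <;> fin_cases j <;> simp [fU, fV, nn, cr, zz, eval_lrX]
  have e1 : ∀ x : Fin 4 → ℂ, eval x M.Γ = 0 → yz (Pf19.wd (ln M.g (ln M.g' (fU (ln M.E x))))
      (ln M.g (ln M.g' (fV (ln M.E x))))) = ln M.E (dd (ln M.E x) • x) := fun x hx => by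
    rw [M.gg', M.gg', yz_psi ((M.hΓ x).symm.trans hx)]
    exact (map_smul (lL M.E) _ _).symm
  have e2 : ∀ x : Fin 4 → ℂ, eval x M.Γ = 0 → M.πL (Pf19.wd (ln M.g' (fU (ln M.E x)))
      (ln M.g' (fV (ln M.E x)))) = dd (ln M.E x) • x := fun x hx => by
    rw [M.πL_wd, e1 x hx, M.pE]
  refine ⟨M.qm hs hl, N.qm hs hl, a.crv hs hl, b.crv hs hl,
    Pf19.wd (lr M.g' (fU (lr M.E X))) (lr M.g' (fV (lr M.E X))), 4,
    ((hg_X.lr _).fU.lr _).wd ((hg_X.lr _).fV.lr _), ?_, fun x hx h => ?_⟩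
  · obtain ⟨x, h1, h2⟩ := exists_dd M hd
    refine ⟨x, h1, Function.ne_iff.1 fun h => ?_⟩
    have h3 := e2 x h1
    rw [← e, h, show M.πL (fun _ => 0) = 0 from map_zero M.πL, eq_comm,
      smul_eq_zero_iff_right h2] at h3
    rw [h3, show ln M.E (0 : Fin 4 → ℂ) = 0 from map_zero (lL M.E)] at h2
    simp [dd] at h2
  · have h0 := Function.ne_iff.2 h
    rw [e] at h0 ⊢
    refine ⟨ons_wd h0 ((M.w _ _).2 (by rw [e1 x hx, M.pE])),
      (M.rel_iff hs hl _ _).2 (NF.rl_wd ?_ ?_ ?_)⟩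
    · rw [e2 x hx]
      exact par_smul _ x
    · exact fun r => (M.gg' _).symm ▸ AA_fU _ r
    · exact fun r => (M.gg' _).symm ▸ AA_fV _ r

include hs hl in
theorem cert_of_nf (hc : Top.SmCub (Pf19.cub ω)) (hn : Pf19.NoConic ℂ ω) (a : Img M N)
    (b : Img N M) (hd : ∃ x : Fin 4 → ℂ, dd (ln M.E x) ≠ 0) : CertStmt :=
  ⟨ω, hs, hc, hl, hn, ⟨geo_of_nf hs hl a b hd⟩⟩

end Geo

end Crest.Agent.X262.St91
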