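import Crest.Agent.X262.St91.Defs2

/-!
# Row 262, G4 / START (helper91): the projection of `G(2,6)` from a rational normal quartic

`V = ℂ³ ⊕ ℂ³`, the curve is `(a, 0) ∧ (0, a)`, `a = (t₀², t₀ t₁, t₁²)`.

* `yz P`  : the ten linear forms which vanish on the curve, `c = (y; z₀; z₁; z₂)`;
* `gU c`  : the quartic which vanishes on the image, `fU c ∧ fV c` the inverse map;
* `AA c`  : four linear forms which vanish on the plane;
* `par_of_ker` : two points of a surface without lines in a space of dimension three agree.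
-/

set_option autoImplicit false

open MvPolynomial

noncomputable section

namespace Crest.Agent.X262.St91

open Crest.Agent.X262.Pf19 (Om Skew NoLine)

section Ring

variable {R R' : Type} [CommRing R] [CommRing R']

/-- the cross product -/
def cr (a b : Fin 3 → R) : Fin 3 → R :=
  ![a 1 * b 2 - a 2 * b 1, a 2 * b 0 - a 0 * b 2, a 0 * b 1 - a 1 * b 0]

/-- the three covectors -/
def zz (c : Fin 10 → R) : Fin 3 → Fin 3 → R := ![![c 1, c 2, c 3], ![c 4, c 5, c 6], ![c 7, c 8, c 9]]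

/-- the adjugate -/
def nn (c : Fin 10 → R) : Fin 3 → Fin 3 → R :=
  ![cr (zz c 1) (zz c 2), cr (zz c 2) (zz c 0), cr (zz c 0) (zz c 1)]

/-- the determinant -/
def dd (c : Fin 10 → R) : R := c 1 * nn c 0 0 + c 2 * nn c 0 1 + c 3 * nn c 0 2

/-- the conic -/
def qq (a b : Fin 3 → R) : R := a 0 * b 2 + a 2 * b 0 - 2 * (a 1 * b 1)

/-- the universal quartic -/
def gU (c : Fin 10 → R) : R := c 0 * dd c + qq (nn c 1) (nn c 1) - qq (nn c 0) (nn c 2)

/-- the first vector of the plane -/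
def fU (c : Fin 10 → R) : Fin 6 → R :=
  ![nn c 1 0, nn c 1 1, nn c 1 2, -nn c 0 0, -nn c 0 1, -nn c 0 2]

/-- the second vector of the plane -/
def fV (c : Fin 10 → R) : Fin 6 → R :=
  ![nn c 2 0, nn c 2 1, nn c 2 2, -nn c 1 0, -nn c 1 1, -nn c 1 2]

/-- the linear forms which vanish on the plane -/
def AA (c : Fin 10 → R) : Fin 4 → Fin 6 → R :=
  ![![c 1, c 2, c 3, 0, 0, 0], ![c 4, c 5, c 6, c 1, c 2, c 3], ![c 7, c 8, c 9, c 4, c 5, c 6],
    ![0, 0, 0, c 7, c 8, c 9]]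

/-- the projection -/
def yz (P : I2 → R) : Fin 10 → R :=
  ![P (0, 5) + P (2, 3) - 2 * P (1, 4), P (1, 2), P (2, 0), P (0, 1), P (1, 5) - P (2, 4),
    P (2, 3) - P (0, 5), P (0, 4) - P (1, 3), P (4, 5), P (5, 3), P (3, 4)]

/-- the first vector of the curve -/
def aU (t : Fin 2 → R) : Fin 6 → R := ![t 0 * t 0, t 0 * t 1, t 1 * t 1, 0, 0, 0]

/-- the second vector of the curve -/
def aV (t : Fin 2 → R) : Fin 6 → R := ![0, 0, 0, t 0 * t 0, t 0 * t 1, t 1 * t 1]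

/-- the values of the three covectors on the conic -/
def za (c : Fin 10 → R) (t : Fin 2 → R) : Fin 3 → R :=
  ![c 1 * (t 0 * t 0) + c 2 * (t 0 * t 1) + c 3 * (t 1 * t 1),
    c 4 * (t 0 * t 0) + c 5 * (t 0 * t 1) + c 6 * (t 1 * t 1),
    c 7 * (t 0 * t 0) + c 8 * (t 0 * t 1) + c 9 * (t 1 * t 1)]

/-- a determinant of order three -/
def d3 (a b c : Fin 3 → R) : R := a 0 * cr b c 0 + a 1 * cr b c 1 + a 2 * cr b c 2

/-- the relation between four vectors of a space of dimension three -/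
def x4 (m : Fin 4 → Fin 3 → R) : Fin 4 → R :=
  ![d3 (m 1) (m 2) (m 3), -d3 (m 0) (m 2) (m 3), d3 (m 0) (m 1) (m 3), -d3 (m 0) (m 1) (m 2)]

theorem x4_rel (m : Fin 4 → Fin 3 → R) (r : Fin 3) : ∑ k, x4 m k * m k r = 0 := by
  fin_cases r <;> simp [Fin.sum_univ_four, x4, d3, cr] <;> ring

theorem x4_par (m : Fin 4 → Fin 3 → R) {x : Fin 4 → R} (h : ∀ r, ∑ k, x k * m k r = 0) (i j : Fin 4) :
    x i * x4 m j = x j * x4 m i := by
  have H : ∀ k l, cr (m k) (m l) 0 * ∑ k, x k * m k 0 + cr (m k) (m l) 1 * ∑ k, x k * m k 1 +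
      cr (m k) (m l) 2 * ∑ k, x k * m k 2 = 0 := fun k l => by simp only [h, mul_zero, add_zero]
  have k01 : x 0 * x4 m 1 = x 1 * x4 m 0 := by
    have := H 2 3
    simp [x4, d3, cr, Fin.sum_univ_four] at this ⊢
    linear_combination -this
  have k02 : x 0 * x4 m 2 = x 2 * x4 m 0 := by
    have := H 1 3
    simp [x4, d3, cr, Fin.sum_univ_four] at this ⊢
    linear_combination this
  have k03 : x 0 * x4 m 3 = x 3 * x4 m 0 := by
    have := H 1 2
    simp [x4, d3, cr, Fin.sum_univ_four] at this ⊢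
    linear_combination -this
  have k12 : x 1 * x4 m 2 = x 2 * x4 m 1 := by
    have := H 0 3
    simp [x4, d3, cr, Fin.sum_univ_four] at this ⊢
    linear_combination -this
  have k13 : x 1 * x4 m 3 = x 3 * x4 m 1 := by
    have := H 0 2
    simp [x4, d3, cr, Fin.sum_univ_four] at this ⊢
    linear_combination this
  have k23 : x 2 * x4 m 3 = x 3 * x4 m 2 := by
    have := H 0 1
    simp [x4, d3, cr, Fin.sum_univ_four] at this ⊢
    linear_combination -this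
  fin_cases i <;> fin_cases j
  exacts [rfl, k01, k02, k03, k01.symm, rfl, k12, k13, k02.symm, k12.symm, rfl, k23, k03.symm,
    k13.symm, k23.symm, rfl]

theorem AA_left (u v : Fin 6 → R) (r : Fin 4) : ∑ m, AA (yz (Pf19.wd u v)) r m * u m = 0 := by
  fin_cases r <;> simp [Fin.sum_univ_six, AA, yz, Pf19.wd] <;> ring

theorem AA_right (u v : Fin 6 → R) (r : Fin 4) : ∑ m, AA (yz (Pf19.wd u v)) r m * v m = 0 := by
  fin_cases r <;> simp [Fin.sum_univ_six, AA, yz, Pf19.wd] <;> ring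

theorem AA_fU (c : Fin 10 → R) (r : Fin 4) : ∑ m, AA c r m * fU c m = 0 := by
  fin_cases r <;> simp [Fin.sum_univ_six, AA, fU, nn, cr, zz] <;> ring

theorem AA_fV (c : Fin 10 → R) (r : Fin 4) : ∑ m, AA c r m * fV c m = 0 := by
  fin_cases r <;> simp [Fin.sum_univ_six, AA, fV, nn, cr, zz] <;> ring

theorem gU_yz (u v : Fin 6 → R) : gU (yz (Pf19.wd u v)) = 0 := by
  simp [gU, dd, qq, nn, cr, zz, yz, Pf19.wd]
  ring

theorem yz_psi {c : Fin 10 → R} (h : gU c = 0) : yz (Pf19.wd (fU c) (fV c)) = dd c • c := by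
  funext i
  simp only [gU, dd, qq, nn, cr, zz] at h
  fin_cases i <;> simp [yz, Pf19.wd, fU, fV, dd, nn, cr, zz] at h ⊢
  · linear_combination -h
  all_goals ring

theorem yz_a (t : Fin 2 → R) : yz (Pf19.wd (aU t) (aV t)) = 0 := by
  funext i
  fin_cases i <;> simp [yz, Pf19.wd, aU, aV] <;> ring

theorem AA_a (c : Fin 10 → R) (t : Fin 2 → R) (h : za c t = 0) (r : Fin 4) :
    ∑ m, AA c r m * aU t m = 0 ∧ ∑ m, AA c r m * aV t m = 0 := by
  have h0 := congrFun h 0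
  have h1 := congrFun h 1
  have h2 := congrFun h 2
  simp [za] at h0 h1 h2
  fin_cases r <;> simp [Fin.sum_univ_six, AA, aU, aV, h0, h1, h2]

/-- a linear map with complex coefficients -/
def lr [Algebra ℂ R] {ι κ : Type} [Fintype κ] (π : ι → κ → ℂ) (P : κ → R) (i : ι) : R :=
  ∑ j, algebraMap ℂ R (π i j) * P j

theorem eval_lr {σ ι κ : Type} [Fintype κ] (π : ι → κ → ℂ) (P : κ → MvPolynomial σ ℂ) (x : σ → ℂ)
    (i : ι) : eval x (lr π P i) = ln π (fun j => eval x (P j)) i := by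
  simp [lr, ln]

end Ring

section Hom

variable {σ : Type}

/-- a vector of forms of degree `d` -/
def Hg {ι : Type} (d : ℕ) (v : ι → MvPolynomial σ ℂ) : Prop := ∀ i, (v i).IsHomogeneous d

theorem Hg.lr {ι κ : Type} [Fintype κ] (π : ι → κ → ℂ) {d : ℕ} {P : κ → MvPolynomial σ ℂ}
    (h : Hg d P) : Hg d (lr π P) := fun _ =>
  IsHomogeneous.sum _ _ _ fun j _ => (h j).C_mul _

theorem Hg.wd {ι : Type} {d e : ℕ} {u v : ι → MvPolynomial σ ℂ} (h : Hg d u) (h' : Hg e v) :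
    Hg (d + e) (Pf19.wd u v) := fun _ => ((h _).mul (h' _)).sub ((h _).mul (h' _))

theorem Hg.cr {d e : ℕ} {u v : Fin 3 → MvPolynomial σ ℂ} (h : Hg d u) (h' : Hg e v) :
    Hg (d + e) (cr u v) := fun i => by
  fin_cases i <;> exact ((h _).mul (h' _)).sub ((h _).mul (h' _))

theorem Hg.zz {c : Fin 10 → MvPolynomial σ ℂ} (h : Hg 1 c) (k : Fin 3) : Hg 1 (zz c k) :=
  fun i => by fin_cases k <;> fin_cases i <;> exact h _

theorem Hg.nn {c : Fin 10 → MvPolynomial σ ℂ} (h : Hg 1 c) (k : Fin 3) : Hg 2 (nn c k) := by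
  fin_cases k <;> exact (h.zz _).cr (h.zz _)

theorem Hg.dd {c : Fin 10 → MvPolynomial σ ℂ} (h : Hg 1 c) : (dd c).IsHomogeneous 3 :=
  (((h _).mul (h.nn _ _)).add ((h _).mul (h.nn _ _))).add ((h _).mul (h.nn _ _))

theorem Hg.fU {c : Fin 10 → MvPolynomial σ ℂ} (h : Hg 1 c) : Hg 2 (fU c) := fun i => by
  fin_cases i
  exacts [h.nn 1 0, h.nn 1 1, h.nn 1 2, (h.nn 0 0).neg, (h.nn 0 1).neg, (h.nn 0 2).neg]

theorem Hg.fV {c : Fin 10 → MvPolynomial σ ℂ} (h : Hg 1 c) : Hg 2 (fV c) := fun i => by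
  fin_cases i
  exacts [h.nn 2 0, h.nn 2 1, h.nn 2 2, (h.nn 1 0).neg, (h.nn 1 1).neg, (h.nn 1 2).neg]

theorem hg_X : Hg 1 (X : σ → MvPolynomial σ ℂ) := isHomogeneous_X ℂ

theorem hg_aU : Hg 2 (aU (X : Fin 2 → MvPolynomial (Fin 2) ℂ)) := fun i => by
  fin_cases i
  exacts [(hg_X 0).mul (hg_X 0), (hg_X 0).mul (hg_X 1), (hg_X 1).mul (hg_X 1),
    isHomogeneous_zero _ _ _, isHomogeneous_zero _ _ _, isHomogeneous_zero _ _ _]

theorem hg_aV : Hg 2 (aV (X : Fin 2 → MvPolynomial (Fin 2) ℂ)) := fun i => by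
  fin_cases i
  exacts [isHomogeneous_zero _ _ _, isHomogeneous_zero _ _ _, isHomogeneous_zero _ _ _,
    (hg_X 0).mul (hg_X 0), (hg_X 0).mul (hg_X 1), (hg_X 1).mul (hg_X 1)]

theorem Hg.x4 {m : Fin 4 → Fin 3 → MvPolynomial σ ℂ} (h : ∀ k, Hg 2 (m k)) : Hg 6 (x4 m) := by
  have h3 : ∀ i j k, (d3 (m i) (m j) (m k)).IsHomogeneous 6 := fun i j k =>
    (((h i 0).mul ((h j).cr (h k) 0)).add ((h i 1).mul ((h j).cr (h k) 1))).add
      ((h i 2).mul ((h j).cr (h k) 2))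
  intro i
  fin_cases i
  exacts [h3 _ _ _, (h3 _ _ _).neg, h3 _ _ _, (h3 _ _ _).neg]

end Hom

/-! ### complex points -/

theorem gU_of_za {c : Fin 10 → ℂ} {t : Fin 2 → ℂ} (ht : t ≠ 0) (h : za c t = 0) : gU c = 0 := by
  have h0 := congrFun h 0
  have h1 := congrFun h 1
  have h2 := congrFun h 2
  simp [za] at h0 h1 h2
  by_cases h3 : t 0 = 0
  · have h4 : t 1 ≠ 0 := fun h4 => ht (funext (Fin.forall_fin_two.2 ⟨h3, h4⟩))
    simp [h3, h4] at h0 h1 h2
    simp [gU, dd, qq, nn, cr, zz, h0, h1, h2]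
  · obtain ⟨s, hs⟩ : ∃ s, t 1 = s * t 0 := ⟨t 1 / t 0, by field_simp⟩
    have h4 := mul_ne_zero h3 h3
    have e1 : c 1 = -s * c 2 - s * s * c 3 :=
      mul_right_cancel₀ h4 (by rw [hs] at h0; linear_combination h0)
    have e2 : c 4 = -s * c 5 - s * s * c 6 :=
      mul_right_cancel₀ h4 (by rw [hs] at h1; linear_combination h1)
    have e3 : c 7 = -s * c 8 - s * s * c 9 :=
      mul_right_cancel₀ h4 (by rw [hs] at h2; linear_combination h2)
    simp [gU, dd, qq, nn, cr, zz, e1, e2, e3]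
    ring

theorem exists_frame {om : Fin 6 → I2 → ℂ} {P : I2 → ℂ} (h : OnS om P) :
    ∃ u v, P = Pf19.wd u v := by
  obtain ⟨⟨i, j⟩, hij⟩ := Function.ne_iff.1 h.ne
  replace hij : P (i, j) ≠ 0 := hij
  refine ⟨fun k => P (i, k) / P (i, j), fun k => P (j, k), funext fun ⟨k, l⟩ => ?_⟩
  simp only [Pf19.wd]
  field_simp
  linear_combination h.plk i j k l

theorem ons_wd {om : Fin 6 → I2 → ℂ} {u v : Fin 6 → ℂ} (h0 : Pf19.wd u v ≠ 0)
    (h : ln om (Pf19.wd u v) = 0) : OnS om (Pf19.wd u v) :=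
  ⟨h0, fun i j => by simp only [Pf19.wd]; ring, fun i j k l => by simp only [Pf19.wd]; ring, h⟩

theorem ln_wd {ω : Om} (hs : Skew ω) (u v : Fin 6 → ℂ) :
    ln (omI ω) (Pf19.wd u v) = (2 : ℂ) • Pf19.w ω u v := by
  rw [two_smul]
  nth_rw 2 [← neg_neg (Pf19.w ω u v)]
  rw [← hs.swap]
  funext a
  simp only [ln, omI, Pf19.wd, Fintype.sum_prod_type, Pi.add_apply, Pi.neg_apply, Pf19.w_apply,
    ← Finset.sum_neg_distrib, ← Finset.sum_add_distrib]
  exact Finset.sum_congr rfl fun i _ => Finset.sum_congr rfl fun j _ => by simp; ring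

theorem exists_det {a b : ℂ} (h : ¬(a = 0 ∧ b = 0)) : ∃ c d : ℂ, a * d - b * c = 1 := by
  by_cases ha : a = 0
  · have hb : b ≠ 0 := fun hb => h ⟨ha, hb⟩
    exact ⟨-b⁻¹, 0, by field_simp; ring⟩
  · exact ⟨0, a⁻¹, by field_simp; ring⟩

theorem wd_eq_zero {u v : Fin 6 → ℂ} {a b : ℂ} (h : ¬(a = 0 ∧ b = 0)) (h1 : a • u + b • v = 0) :
    Pf19.wd u v = 0 := by
  obtain ⟨c, d, e⟩ := exists_det h
  funext ⟨i, j⟩
  have h2 := congrFun h1 i
  have h3 := congrFun h1 j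
  simp only [Pi.add_apply, Pi.smul_apply, smul_eq_mul, Pi.zero_apply, Pf19.wd] at h2 h3 ⊢
  linear_combination (c * u j + d * v j) * h2 - (c * u i + d * v i) * h3 -
    (u i * v j - u j * v i) * e

/-- two planes which meet -/
theorem par_of_dep {ω : Om} (hs : Skew ω) (hl : NoLine ℂ ω) {u v u' v' : Fin 6 → ℂ}
    (h : OnS (omI ω) (Pf19.wd u v)) (h' : OnS (omI ω) (Pf19.wd u' v'))
    (hd : ¬LinearIndependent ℂ ![u, v, u', v']) : Par (Pf19.wd u v) (Pf19.wd u' v') := by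
  obtain ⟨c, h1, i, h2⟩ := Fintype.not_linearIndependent_iff.1 hd
  simp only [Fin.sum_univ_four, Matrix.cons_val] at h1
  have a1 : ¬(c 0 = 0 ∧ c 1 = 0) := fun ⟨e0, e1⟩ => h'.ne (wd_eq_zero (a := c 2) (b := c 3)
    (fun ⟨e2, e3⟩ => h2 (by fin_cases i <;> assumption)) (by simpa [e0, e1] using h1))
  have a2 : ¬(-c 2 = 0 ∧ -c 3 = 0) := fun ⟨e2, e3⟩ => h.ne (wd_eq_zero a1
    (by simpa [neg_eq_zero.1 e2, neg_eq_zero.1 e3] using h1))
  obtain ⟨p, q, e1⟩ := exists_det a1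
  obtain ⟨p', q', e2⟩ := exists_det a2
  have e3 : c 0 • u + c 1 • v = -c 2 • u' + -c 3 • v' := by linear_combination (norm := module) h1
  have f1 : Pf19.wd (c 0 • u + c 1 • v) (p • u + q • v) = Pf19.wd u v := funext fun ij => by
    simp only [Pf19.wd, Pi.add_apply, Pi.smul_apply, smul_eq_mul]
    linear_combination (u ij.1 * v ij.2 - u ij.2 * v ij.1) * e1
  have f2 : Pf19.wd (c 0 • u + c 1 • v) (p' • u' + q' • v') = Pf19.wd u' v' := funext fun ij => by
    rw [e3]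
    simp only [Pf19.wd, Pi.add_apply, Pi.smul_apply, smul_eq_mul]
    linear_combination (u' ij.1 * v' ij.2 - u' ij.2 * v' ij.1) * e2
  rw [← f1] at h ⊢
  rw [← f2] at h' ⊢
  generalize c 0 • u + c 1 • v = u0 at h h' ⊢
  generalize p • u + q • v = u1 at h ⊢
  generalize p' • u' + q' • v' = u2 at h' ⊢
  have g1 := h.lin
  have g2 := h'.lin
  rw [ln_wd hs, smul_eq_zero_iff_right two_ne_zero] at g1 g2
  obtain ⟨e, h3, i, h4⟩ := Fintype.not_linearIndependent_iff.1 (hl ![u0, u1, u2] g1 g2)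
  simp only [Fin.sum_univ_three, Matrix.cons_val] at h3
  have a3 : ¬(e 1 = 0 ∧ e 2 = 0) := fun ⟨e1, e2⟩ => h.ne (wd_eq_zero (a := e 0) (b := 0)
    (fun ⟨e0, _⟩ => h4 (by fin_cases i <;> assumption)) (by simpa [e1, e2] using h3))
  obtain ⟨r, s, e4⟩ := exists_det a3
  have g3 : ∀ ij, e 1 * Pf19.wd u0 u1 ij + e 2 * Pf19.wd u0 u2 ij = 0 := fun ij => by
    have k1 := congrFun h3 ij.1
    have k2 := congrFun h3 ij.2
    simp only [Pi.add_apply, Pi.smul_apply, smul_eq_mul, Pi.zero_apply, Pf19.wd] at k1 k2 ⊢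
    linear_combination u0 ij.1 * k2 - u0 ij.2 * k1
  intro i j
  linear_combination (s * Pf19.wd u0 u2 j + r * Pf19.wd u0 u1 j) * g3 i -
    (s * Pf19.wd u0 u2 i + r * Pf19.wd u0 u1 i) * g3 j -
    (Pf19.wd u0 u1 i * Pf19.wd u0 u2 j - Pf19.wd u0 u1 j * Pf19.wd u0 u2 i) * e4

theorem pair_of_cr {a b : Fin 3 → ℂ} (h : cr a b ≠ 0) {s t : ℂ} (h0 : s * a 0 + t * b 0 = 0)
    (h1 : s * a 1 + t * b 1 = 0) (h2 : s * a 2 + t * b 2 = 0) : s = 0 ∧ t = 0 := by
  by_contra h3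
  obtain ⟨p, q, e⟩ := exists_det h3
  refine h (funext fun i => ?_)
  fin_cases i <;> simp [cr]
  · linear_combination (p * a 2 + q * b 2) * h1 - (p * a 1 + q * b 1) * h2 -
      (a 1 * b 2 - a 2 * b 1) * e
  · linear_combination (p * a 0 + q * b 0) * h2 - (p * a 2 + q * b 2) * h0 -
      (a 2 * b 0 - a 0 * b 2) * e
  · linear_combination (p * a 1 + q * b 1) * h0 - (p * a 0 + q * b 0) * h1 -
      (a 0 * b 1 - a 1 * b 0) * e

theorem exists_rows {c : Fin 10 → ℂ} (h : nn c ≠ 0) :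
    ∃ f : Fin 3 → Fin 4, LinearIndependent ℂ fun i => AA c (f i) := by
  have key : ∀ f : Fin 3 → Fin 4, (∀ g : Fin 3 → ℂ,
      (∀ m, g 0 * AA c (f 0) m + g 1 * AA c (f 1) m + g 2 * AA c (f 2) m = 0) →
        g 0 = 0 ∧ g 1 = 0 ∧ g 2 = 0) → LinearIndependent ℂ fun i => AA c (f i) := fun f hf =>
    Fintype.linearIndependent_iff.2 fun g hg i => by
      obtain ⟨h0, h1, h2⟩ := hf g fun m => by simpa [Fin.sum_univ_three] using congrFun hg m
      fin_cases i <;> assumption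
  obtain ⟨k, hk⟩ := Function.ne_iff.1 h
  fin_cases k
  · refine ⟨![1, 2, 3], key _ fun g hg => ?_⟩
    obtain ⟨h0, h1⟩ := pair_of_cr hk (s := g 0) (t := g 1) (by simpa [AA, zz] using hg 0)
      (by simpa [AA, zz] using hg 1) (by simpa [AA, zz] using hg 2)
    exact ⟨h0, h1, (pair_of_cr hk (s := 0) (t := g 2) (by simpa [AA, zz, h0, h1] using hg 3)
      (by simpa [AA, zz, h0, h1] using hg 4) (by simpa [AA, zz, h0, h1] using hg 5)).2⟩
  · refine ⟨![0, 1, 3], key _ fun g hg => ?_⟩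
    obtain ⟨h2, h1⟩ := pair_of_cr hk (s := g 2) (t := g 1)
      (by simpa [AA, zz, add_comm] using hg 3) (by simpa [AA, zz, add_comm] using hg 4)
      (by simpa [AA, zz, add_comm] using hg 5)
    exact ⟨(pair_of_cr hk (s := 0) (t := g 0) (by simpa [AA, zz, h2, h1] using hg 0)
      (by simpa [AA, zz, h2, h1] using hg 1) (by simpa [AA, zz, h2, h1] using hg 2)).2, h1, h2⟩
  · refine ⟨![0, 1, 2], key _ fun g hg => ?_⟩
    obtain ⟨h1, h2⟩ := pair_of_cr hk (s := g 1) (t := g 2) (by simpa [AA, zz] using hg 3)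
      (by simpa [AA, zz] using hg 4) (by simpa [AA, zz] using hg 5)
    exact ⟨(pair_of_cr hk (s := g 0) (t := 0) (by simpa [AA, zz, h2, h1] using hg 0)
      (by simpa [AA, zz, h2, h1] using hg 1) (by simpa [AA, zz, h2, h1] using hg 2)).1, h1, h2⟩

/-- the kernel of `AA c` has dimension at most three -/
theorem dep_of_ker {c : Fin 10 → ℂ} (h : nn c ≠ 0) {w : Fin 4 → Fin 6 → ℂ}
    (hw : ∀ k r, ∑ m, AA c r m * w k m = 0) : ¬LinearIndependent ℂ w := fun hi => by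
  obtain ⟨f, hf⟩ := exists_rows h
  have h1 := Matrix.rank_add_rank_le_card_of_mul_eq_zero (A := Matrix.of fun i => AA c (f i))
    (B := (Matrix.of w).transpose) (Matrix.ext fun i k => hw k (f i))
  rw [Matrix.rank_transpose, LinearIndependent.rank_matrix (M := Matrix.of w) hi,
    LinearIndependent.rank_matrix (M := Matrix.of fun i => AA c (f i)) hf] at h1
  simp at h1

/-- bilinear relations as a tensor -/
theorem exists_rel {κ : Type} [Fintype κ] (β : κ → (Fin 4 → ℂ) →ₗ[ℂ] (I2 → ℂ) →ₗ[ℂ] ℂ) :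
    ∃ (r : ℕ) (B : Fin r → Fin 4 → I2 → ℂ), ∀ x P, Rel B x P ↔ ∀ a, β a x P = 0 := by
  refine ⟨_, fun a i j => β ((Fintype.equivFin κ).symm a) (Pi.single i 1) (Pi.single j 1),
    fun x P => ?_⟩
  have h : ∀ a, β a x P = ∑ i, x i * ∑ j, β a (Pi.single i 1) (Pi.single j 1) * P j := fun a => by
    conv_lhs => rw [pi_eq_sum_univ' x, pi_eq_sum_univ' P]
    simp only [map_sum, map_smul, LinearMap.sum_apply, LinearMap.smul_apply, smul_eq_mul,
      Finset.mul_sum]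
    rw [Finset.sum_comm]
    exact Finset.sum_congr rfl fun i _ => Finset.sum_congr rfl fun j _ => by ring
  simp only [h]
  exact ⟨fun H a => by simpa [ln] using H (Fintype.equivFin κ a), fun H a => H _⟩

end Crest.Agent.X262.St91
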